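import Vale.Agent.P155.E.Atom
import Vale.Agent.P155.E.Three
import Vale.Agent.P155.J.Sum

/-!
# P155, TIGHT (4), ME-SD: the second moment Schwinger–Dyson identity on one box
-/

namespace Vale.Agent.P155.E3

open Finset Skel J E

theorem avg_abs_nonneg {α : Type*} (s : Finset α) (g : α → ℝ) : 0 ≤ avg s (fun a => |g a|) :=
  avg_nonneg (fun _ _ => abs_nonneg _)

/-- second moment identity on one box -/
theorem box_two (hI : E_incr) (hM : E_meas) {T : Temp} {R : ℕ} (hfit : Fits T R) {x : Pt} {n : ℕ}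
    {ω : Conf} (hω : ω ∈ DD T.V) {ψ f : Pt → ℝ} {t : ℕ} {H : ℝ} (hb : IsBump x t H ψ)
    (htn : t ≤ n) {e1 e2 : ℝ}
    (he1 : |cEx T.V (XB T x n) (fun ω' => hf ω' (lap ψ)) ω| ≤ e1)
    (he2 : ∀ y, dn x y ≤ n → |cCov T.V (XB T x n) (fun ω' => hf ω' (lap ψ)) (hR y) ω +
      2 / Real.pi * ψ y| ≤ e2) :
    |cEx T.V (XB T x n) (fun ω' => hf ω' (lap ψ) * hf ω' f) ω + 2 / Real.pi * pair ψ f| ≤
    e1 * cEx T.V (XB T x n) (fun ω' => |hf ω' f|) ω + (∑ y ∈ box x n, |f y|) * e2 := by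
  set Y : Conf → ℝ := fun ω' => hf ω' (lap ψ) with hY
  set F : Conf → ℝ := fun ω' => hf ω' f with hF
  have hFe : ∀ ω' ∈ atom T.V (XB T x n) ω, F ω' =
      (hf ω f - ∑ y ∈ box x n, f y * hR y ω) + ∑ y ∈ box x n, f y * hR y ω' := by
    intro ω' hω'
    simp only [hF]
    rw [hf_split hI hM hfit hω hω']
    simp only [mul_sub, Finset.sum_sub_distrib]
    ring
  have hcov : cCov T.V (XB T x n) Y F ω =
      ∑ y ∈ box x n, f y * cCov T.V (XB T x n) Y (hR y) ω := by
    rw [cCov_congr (f := F) (g := Y) (g' := Y) (f' := fun ω' =>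
      (hf ω f - ∑ y ∈ box x n, f y * hR y ω) + ∑ y ∈ box x n, f y * hR y ω')
      (fun _ _ => rfl) hFe, cCov_add_right, cCov_meas hω Y (F := fun _ =>
        hf ω f - ∑ y ∈ box x n, f y * hR y ω) (fun _ _ => rfl), zero_add, cCov_sum_right]
    exact Finset.sum_congr rfl (fun y _ => cCov_mul_right _ _ _)
  have hsplit : cEx T.V (XB T x n) (fun ω' => Y ω' * F ω') ω + 2 / Real.pi * pair ψ f =
      cEx T.V (XB T x n) Y ω * cEx T.V (XB T x n) F ω +
      ∑ y ∈ box x n, f y * (cCov T.V (XB T x n) Y (hR y) ω + 2 / Real.pi * ψ y) := by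
    have e : cEx T.V (XB T x n) (fun ω' => Y ω' * F ω') ω =
        cEx T.V (XB T x n) Y ω * cEx T.V (XB T x n) F ω + cCov T.V (XB T x n) Y F ω := by
      unfold cCov; ring
    rw [e, hcov, pair_eq_box hb htn]
    simp only [mul_add, Finset.sum_add_distrib]
    rw [Finset.mul_sum]
    have : ∑ y ∈ box x n, 2 / Real.pi * (f y * ψ y) = ∑ y ∈ box x n, f y * (2 / Real.pi * ψ y) :=
      Finset.sum_congr rfl (fun y _ => by ring)
    rw [this]
    ring
  rw [hsplit]
  refine (abs_add_le _ _).trans ?_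
  apply add_le_add
  · rw [abs_mul]
    exact mul_le_mul he1 (abs_cEx_le F) (abs_nonneg _) ((abs_nonneg _).trans he1)
  · refine (Finset.abs_sum_le_sum_abs _ _).trans ?_
    rw [Finset.sum_mul]
    apply Finset.sum_le_sum
    intro y hy
    rw [abs_mul]
    exact mul_le_mul_of_nonneg_left (he2 y (dn_le_iff.2 hy)) (abs_nonneg _)

/-- crude bound for one bump -/
theorem crude_Y {T : Temp} {R : ℕ} (hR1 : 1 ≤ R) (hfit : Fits T R) {ω : Conf} (hω : ω ∈ DD T.V)
    {x : Pt} {t : ℕ} {H : ℝ} {ψ : Pt → ℝ} (h : IsBump x t H ψ) (ht : t ≤ R) :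
    |hf ω (lap ψ)| ≤ 1400 * (R : ℝ) ^ 3 * H := by
  have hH := IsBump.nonneg h
  have hRr : (1 : ℝ) ≤ R := by exact_mod_cast hR1
  have htr : (t : ℝ) ≤ R := by exact_mod_cast ht
  refine (abs_hf_lap_le hfit hω h).trans ?_
  have e1 : (2 * (t : ℝ) + 3) ^ 2 ≤ (5 * R) ^ 2 := by
    apply pow_le_pow_left₀ (by positivity)
    linarith
  have e2 : 8 * H * (2 * (R : ℝ) + 5) ≤ 8 * H * (7 * R) := by
    apply mul_le_mul_of_nonneg_left (by linarith) (by positivity)
  calc (2 * (t : ℝ) + 3) ^ 2 * (8 * H * (2 * R + 5)) ≤ (5 * R) ^ 2 * (8 * H * (7 * R)) := by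
        apply mul_le_mul e1 e2 (by positivity) (by positivity)
    _ = 1400 * (R : ℝ) ^ 3 * H := by ring

/-- averaging a box estimate over the atom of a coarser exploration -/
theorem box_to_X {T : Temp} {X : Expl} (hX : IsExpl T.V X) {ω : Conf} (hω : ω ∈ DD T.V)
    {x : Pt} {n : ℕ} (h1 : (box x n : Set Pt) ⊆ (X ω).1) (h2 : (box x n : Set Pt) ⊆ (X ω).2)
    {G : Set Conf} {W F : Conf → ℝ} {K c e b' : ℝ} (he : 0 ≤ e) (hc : 0 ≤ c) (hb' : 0 ≤ b')
    (hgood : ∀ ω' ∈ DD T.V, ω' ∈ G →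
      |cEx T.V (XB T x n) W ω' + K| ≤ e * cEx T.V (XB T x n) (fun ω'' => |F ω''|) ω' + c)
    (hbad : ∀ ω' ∈ DD T.V, |W ω' + K| ≤ b') :
    |cEx T.V X W ω + K| ≤ e * cEx T.V X (fun ω' => |F ω'|) ω + c + b' * cEx T.V X (bad G) ω := by
  have hne : (atom T.V X ω).Nonempty := ⟨ω, self_mem_atom hω⟩
  have e1 : cEx T.V X W ω + K = cEx T.V X (fun ω' => cEx T.V (XB T x n) W ω' + K) ω := by
    rw [cEx_eq_avg, cEx_eq_avg, avg_add, avg_const hne]
    have := cEx_outside hX (isExpl_F0 T.V) (B := (box x n : Set Pt)) hω h1 h2 W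
    rw [cEx_eq_avg, cEx_eq_avg] at this
    rw [this]
  have e2 : cEx T.V X (fun ω' => cEx T.V (XB T x n) (fun ω'' => |F ω''|) ω') ω =
      cEx T.V X (fun ω' => |F ω'|) ω :=
    cEx_outside hX (isExpl_F0 T.V) (B := (box x n : Set Pt)) hω h1 h2 (fun ω' => |F ω'|)
  rw [e1]
  refine (abs_cEx_le _).trans ?_
  calc cEx T.V X (fun ω' => |cEx T.V (XB T x n) W ω' + K|) ω
      ≤ cEx T.V X (fun ω' => e * cEx T.V (XB T x n) (fun ω'' => |F ω''|) ω' + c +
          b' * bad G ω') ω := by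
        apply cEx_mono
        intro ω' h'
        have hD := atom_sub h'
        by_cases hG : ω' ∈ G
        · have := hgood ω' hD hG
          have := mul_nonneg hb' (bad_nonneg G ω')
          linarith
        · rw [bad_of_notMem hG, mul_one]
          have hne' : (atom T.V (XB T x n) ω').Nonempty := ⟨ω', self_mem_atom hD⟩
          have g1 : |cEx T.V (XB T x n) W ω' + K| ≤ b' := by
            have : cEx T.V (XB T x n) W ω' + K = cEx T.V (XB T x n) (fun ω'' => W ω'' + K) ω' := by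
              rw [cEx_eq_avg, cEx_eq_avg, avg_add, avg_const hne']
            rw [this]
            refine (abs_cEx_le _).trans ?_
            exact avg_le_const hb' (fun ω'' h'' => hbad ω'' (atom_sub h''))
          have g2 : 0 ≤ e * cEx T.V (XB T x n) (fun ω'' => |F ω''|) ω' :=
            mul_nonneg he (cEx_nonneg (fun _ _ => abs_nonneg _))
          linarith
    _ = e * cEx T.V X (fun ω' => cEx T.V (XB T x n) (fun ω'' => |F ω''|) ω') ω + c +
          b' * cEx T.V X (bad G) ω := by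
        rw [cEx_eq_avg, avg_add, avg_add, avg_mul_left, avg_mul_left, avg_const hne]
        rfl
    _ = _ := by rw [e2]

end Vale.Agent.P155.E3
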