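import Vale.Agent.P155.E3.Main

/-!
# P155, TIGHT (4), ME-SD: proof
-/

namespace Vale.Agent.P155.E3

open Finset Skel J E Filter

/-- choosing the good events of `E_loc` for all boxes at once -/
theorem loc_events (hL : E_loc) {κ a p : ℝ} (hκ : 0 < κ) (hκ' : κ < 1 / 100) (ha : 0 < a) :
    ∃ n0 : ℕ, ∃ CE : ℝ, 0 ≤ CE ∧ ∀ (R : ℕ) (T : Temp), 1 ≤ R → Fits T R →
      ∃ G : Pt → ℕ → Set Conf, (∀ x n, Ex T.V (bad (G x n)) ≤ CE * (R : ℝ) ^ (-p)) ∧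
        LocGood T κ CE R G (fun n => n0 ≤ n ∧ (R : ℝ) ^ a ≤ n) := by
  obtain ⟨n0, hn0, CE, hCE, hE⟩ := hL κ a p hκ hκ' ha
  refine ⟨n0, CE, hCE, fun R T hR1 hfit => ?_⟩
  have hex : ∀ (x : Pt) (n : ℕ), ∃ G : Set Conf, Ex T.V (bad G) ≤ CE * (R : ℝ) ^ (-p) ∧
      ((n0 ≤ n ∧ (R : ℝ) ^ a ≤ n) → 2 * n ≤ dF T.faceSet x → ∀ ω ∈ DD T.V, ω ∈ G →
      ∀ (H : ℝ) (ψ : Pt → ℝ), IsBump x ⌊(n : ℝ) ^ (1 - 3 * κ)⌋₊ H ψ →
      |cEx T.V (XB T x n) (fun ω' => hf ω' (lap ψ)) ω| ≤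
        CE * H * (R : ℝ) ^ κ * (n : ℝ) ^ (-1 + κ) ∧
      ∀ y, dn x y ≤ n → |cCov T.V (XB T x n) (fun ω' => hf ω' (lap ψ)) (hR y) ω +
        2 / Real.pi * ψ y| ≤ CE * H * (R : ℝ) ^ κ * (n : ℝ) ^ (-(1 / 20) : ℝ)) := by
    intro x n
    by_cases h1 : n0 ≤ n ∧ (R : ℝ) ^ a ≤ n
    · by_cases h2 : 2 * n ≤ dF T.faceSet x
      · obtain ⟨G, hG1, hG2⟩ := hE R T hR1 hfit x n h1.1 h1.2 h2
        exact ⟨G, hG1, fun _ _ ω hω hg => (hG2 ω hω hg).2⟩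
      · refine ⟨Set.univ, ?_, fun _ h => absurd h h2⟩
        apply Ex_le_const (by positivity)
        intro ω _
        unfold bad
        rw [Set.indicator_of_notMem (by simp)]
        positivity
    · refine ⟨Set.univ, ?_, fun h => absurd h h1⟩
      apply Ex_le_const (by positivity)
      intro ω _
      unfold bad
      rw [Set.indicator_of_notMem (by simp)]
      positivity
  choose G hG1 hG2 using hex
  exact ⟨G, hG1, fun x n h1 h2 => hG2 x n h1 h2⟩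

/-- the estimate on one atom, with explicit constants -/
theorem me_atom (hI : E_incr) (hM : E_meas) {T : Temp} {R s M : ℕ} {κ CE CW : ℝ} {φ u : Pt → ℝ}
    {O : Set Pt} {X : Expl} {ω : Conf} {G : Pt → ℕ → Set Conf}
    (hX : IsExpl T.V X) (hω : ω ∈ DD T.V) (hR1 : 1 ≤ R) (hfit : Fits T R) (hO : O ⊆ T.faceSet)
    (hin : ∀ v : Pt, (∀ f : Pt, v.1 - 1 ≤ f.1 → f.1 ≤ v.1 → v.2 - 1 ≤ f.2 → f.2 ≤ v.2 → f ∈ O) →
      v ∈ (X ω).1 ∧ v ∈ (X ω).2) (W : WData O R s M κ CW u) (hCE : 0 ≤ CE) (hCW : 0 ≤ CW)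
    (hMR : M ≤ R) (hG : LocGood T κ CE R G (fun n => s ≤ 16 * n))
    (hpar : ∀ n : ℕ, s ≤ 16 * n → 1 ≤ n ∧ 1 ≤ ⌊(n : ℝ) ^ (1 - 3 * κ)⌋₊ ∧
      ⌊(n : ℝ) ^ (1 - 3 * κ)⌋₊ ≤ n ∧ (n : ℝ) ^ (1 - 3 * κ) ≤ 2 * ⌊(n : ℝ) ^ (1 - 3 * κ)⌋₊)
    (hκ : 0 < κ) (hs : 1 ≤ s) (h2s : 2 * s ≤ M) {C0 Cd β Mm γ S1 : ℝ} (hC0 : 0 ≤ C0)
    (hCd : 0 ≤ Cd) (hβ : 0 < β) (hMm : 0 ≤ Mm) (hφb : IsBump (0, 0) R (C0 / (R : ℝ) ^ 2) φ)
    (hu : IsGreen O φ u) (hdec : ∀ x, |u x| ≤ Cd * ((dF O x : ℝ) / R) ^ β)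
    (hmt : ∑ x ∈ box (0, 0) R, |fL O φ W.χ u x| ≤ Mm)
    (hmb : ∀ (p : Pt) (ρ : ℕ), s ≤ ρ → ρ ≤ R →
        ∑ x ∈ box p ρ, |fL O φ W.χ u x| ≤ Mm * ((ρ : ℝ) / R) ^ γ)
    (hS1 : ∑ q ∈ W.I, W.H q * eSD κ (1 / 20) R (W.n q) ≤ S1) (hS1' : CE * S1 ≤ 1 / 2)
    (h4 : ((2 * s : ℝ) / R) ^ β ≤ 4 ^ β) :
    |cEx T.V X (fun ω' => hf ω' (lap (fun y => W.χ y * u y))) ω| ≤
      CE * S1 + 1400 * CW ^ 2 * (R : ℝ) ^ 6 * cEx T.V X (badW R G) ω ∧
    |cEx T.V X (fun ω' => (hf ω' (lap (fun y => W.χ y * u y))) ^ 2) ω - 2 / Real.pi * pair φ u| ≤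
      CE * S1 * (2 + 2 * (9 * C0 * Cd * 2 ^ β + (9 * C0 * Cd + Cd * Mm) * 4 ^ β)) +
      2 * (9 * C0 * (CE * S1) + CE * (Mm * ((s : ℝ) / R) ^ γ * (R : ℝ) ^ κ *
        (CW * (1 + Real.log R) * (4 * CW * (s : ℝ) ^ (6 * κ))))) +
      (9 * C0 * Cd + Cd * Mm) * ((2 * s : ℝ) / R) ^ β +
      4000000 * CW ^ 4 * (R : ℝ) ^ 12 * cEx T.V X (badW R G) ω := by
  have hRr : (1 : ℝ) ≤ R := by exact_mod_cast hR1
  have hR0 : (0 : ℝ) < R := by linarith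
  have hfin : T.faceSet.Finite := fs_of_sub_box hfit
  have hOfin : O.Finite := hfin.subset hO
  have hsR : s ≤ R := by omega
  have hlog : 0 ≤ 1 + Real.log R := by
    have := Real.log_nonneg hRr
    linarith
  have hlogR : 1 + Real.log R ≤ R := by
    have := Real.log_le_sub_one_of_pos hR0
    linarith
  set BB : ℝ := cEx T.V X (badW R G) ω with hBB
  have hBB0 : 0 ≤ BB := cEx_nonneg (fun _ _ => badW_nonneg _ _ _)
  set SH : ℝ := ∑ q ∈ W.I, W.H q with hSH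
  have hSH0 : 0 ≤ SH := Finset.sum_nonneg (fun q hq => (W.hn q hq).2.2.2.1)
  have hSHle : SH ≤ CW ^ 2 * (R : ℝ) ^ 3 := by
    refine (sum_H W hCW hR1 hMR (fun n hn => (hpar n hn).2.1)).trans ?_
    calc CW * (1 + Real.log R) * (CW * (R : ℝ) ^ 2) ≤ CW * R * (CW * (R : ℝ) ^ 2) := by gcongr
      _ = _ := by ring
  set A1 : ℝ := ∑ q ∈ W.I, W.H q * eSD κ (1 / 20) R (W.n q) with hA1
  have hA10 : 0 ≤ A1 := Finset.sum_nonneg (fun q hq => mul_nonneg (W.hn q hq).2.2.2.1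
    (eSD_nonneg hR0.le (by positivity)))
  have hS10 : 0 ≤ S1 := hA10.trans hS1
  have hφ : ∀ y, |φ y| ≤ C0 / (R : ℝ) ^ 2 := fun y => IsBump.abs_le hφb y
  constructor
  · have h1 := first_moment hX hω hR1 hfit hO hin W hCE hMR hG
      (fun n hn => ⟨(hpar n hn).1, (hpar n hn).2.1, (hpar n hn).2.2.1⟩)
    refine h1.trans ?_
    have k1 : CE * A1 ≤ CE * S1 := mul_le_mul_of_nonneg_left hS1 hCE
    have k2 : 1400 * (R : ℝ) ^ 3 * SH * BB ≤ 1400 * CW ^ 2 * (R : ℝ) ^ 6 * BB := by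
      apply mul_le_mul_of_nonneg_right _ hBB0
      calc 1400 * (R : ℝ) ^ 3 * SH ≤ 1400 * (R : ℝ) ^ 3 * (CW ^ 2 * (R : ℝ) ^ 3) :=
            mul_le_mul_of_nonneg_left hSHle (by positivity)
        _ = _ := by ring
    linarith
  · set Λ : ℝ := Mm * ((s : ℝ) / R) ^ γ with hΛ
    have hΛ0 : 0 ≤ Λ := by positivity
    have hmass := mass_box W hR1 hOfin hs hsR hu hC0 hφ hmb (fun n hn => (hpar n hn).1)
    have h2 := second_moment hI hM hX hω hR1 hfit hO hin W hCE hMR hG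
      (fun n hn => ⟨(hpar n hn).1, (hpar n hn).2.1, (hpar n hn).2.2.1⟩)
      (Cm := 9 * C0) (Λ := Λ) (by positivity) hΛ0 hmass
    set Z : Conf → ℝ := fun ω' => hf ω' (lap (fun y => W.χ y * u y)) with hZ
    set V : ℝ := cEx T.V X (fun ω' => (Z ω') ^ 2) ω with hV
    set PD : ℝ := pair (fun y => W.χ y * u y) (lap (fun y => W.χ y * u y)) with hPD
    have hV0 : 0 ≤ V := cEx_nonneg (fun _ _ => sq_nonneg _)
    have hE : cEx T.V X (fun ω' => |Z ω'|) ω ≤ 1 + V := by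
      calc cEx T.V X (fun ω' => |Z ω'|) ω ≤ cEx T.V X (fun ω' => 1 + (Z ω') ^ 2) ω := by
            apply cEx_mono
            intro ω' _
            have := sq_abs (Z ω')
            nlinarith [sq_nonneg (|Z ω'| - 1), abs_nonneg (Z ω')]
        _ = 1 + V := by rw [cEx_add, cEx_const hω]
    have hE0 : 0 ≤ cEx T.V X (fun ω' => |Z ω'|) ω := cEx_nonneg (fun _ _ => abs_nonneg _)
    set S2 : ℝ := ∑ q ∈ W.I, W.H q * (if W.n q ≤ s then 1 else 0) with hS2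
    have hS2le := sum_low W hCW hR1 hκ h2s (fun n hn => ⟨(hpar n hn).1, (hpar n hn).2.2.2⟩)
    rw [← hS2] at hS2le
    have hS20 : 0 ≤ S2 := Finset.sum_nonneg (fun q hq => mul_nonneg (W.hn q hq).2.2.2.1
      (by split_ifs <;> norm_num))
    set EL : ℝ := Λ * (R : ℝ) ^ κ * (CW * (1 + Real.log R) * (4 * CW * (s : ℝ) ^ (6 * κ))) with hEL
    have hpairD := pair_D hR1 hC0 hCd hβ hφb hu hOfin (hO.trans hfit) hs hdec W.cut hmt
    rw [← hPD] at hpairD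
    have hpairL := pair_le (O := O) hR1 hC0 hCd hβ hφb (fun x => (dF_mono hO hfin x).trans
      (dF_le_of_fits hfit x)) hdec
    set K5 : ℝ := 9 * C0 * Cd + Cd * Mm with hK5
    have hK50 : 0 ≤ K5 := by positivity
    have hpi0 : (0 : ℝ) ≤ 2 / Real.pi := by positivity
    have hDabs : |-(2 / Real.pi * PD)| ≤ 9 * C0 * Cd * 2 ^ β + K5 * 4 ^ β := by
      rw [abs_neg, abs_mul, abs_of_nonneg hpi0]
      have k1 : |PD| ≤ |pair φ u| + K5 * ((2 * s : ℝ) / R) ^ β := by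
        have : PD = (pair φ u + PD) - pair φ u := by ring
        rw [this]
        refine (abs_sub _ _).trans ?_
        linarith
      calc 2 / Real.pi * |PD| ≤ 1 * |PD| :=
            mul_le_mul_of_nonneg_right two_div_pi_le_one (abs_nonneg _)
        _ ≤ 9 * C0 * Cd * 2 ^ β + K5 * 4 ^ β := by
            have := mul_le_mul_of_nonneg_left h4 hK50
            linarith
    set e2 : ℝ := 9 * C0 * (CE * S1) + CE * EL + 2000000 * CW ^ 4 * (R : ℝ) ^ 12 * BB with he2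
    have hEL0 : 0 ≤ EL := by positivity
    have he20 : 0 ≤ e2 := by positivity
    have hmain : |V - (-(2 / Real.pi * PD))| ≤
        (CE * S1) * cEx T.V X (fun ω' => |Z ω'|) ω + e2 := by
      rw [sub_neg_eq_add]
      refine h2.trans ?_
      have k1 : CE * A1 * cEx T.V X (fun ω' => |Z ω'|) ω ≤
          (CE * S1) * cEx T.V X (fun ω' => |Z ω'|) ω :=
        mul_le_mul_of_nonneg_right (mul_le_mul_of_nonneg_left hS1 hCE) hE0
      have k2 : CE * (9 * C0) * A1 ≤ 9 * C0 * (CE * S1) := by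
        calc CE * (9 * C0) * A1 ≤ CE * (9 * C0) * S1 :=
              mul_le_mul_of_nonneg_left hS1 (by positivity)
          _ = _ := by ring
      have k3 : CE * Λ * (R : ℝ) ^ κ * S2 ≤ CE * EL := by
        calc CE * Λ * (R : ℝ) ^ κ * S2 ≤ CE * Λ * (R : ℝ) ^ κ *
              (CW * (1 + Real.log R) * (4 * CW * (s : ℝ) ^ (6 * κ))) :=
              mul_le_mul_of_nonneg_left hS2le (by positivity)
          _ = _ := by rw [hEL]; ring
      have k4 : 2000000 * (R : ℝ) ^ 6 * SH ^ 2 * BB ≤ 2000000 * CW ^ 4 * (R : ℝ) ^ 12 * BB := by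
        apply mul_le_mul_of_nonneg_right _ hBB0
        calc 2000000 * (R : ℝ) ^ 6 * SH ^ 2 ≤ 2000000 * (R : ℝ) ^ 6 * (CW ^ 2 * (R : ℝ) ^ 3) ^ 2 := by
              apply mul_le_mul_of_nonneg_left _ (by positivity)
              exact pow_le_pow_left₀ hSH0 hSHle 2
          _ = _ := by ring
      linarith
    have hfin1 := v_ineq hV0 hE (mul_nonneg hCE hS10) hS1' he20 hmain hDabs
    have hlast : |2 / Real.pi * (pair φ u + PD)| ≤ K5 * ((2 * s : ℝ) / R) ^ β := by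
      rw [abs_mul, abs_of_nonneg hpi0]
      calc 2 / Real.pi * |pair φ u + PD| ≤ 1 * |pair φ u + PD| :=
            mul_le_mul_of_nonneg_right two_div_pi_le_one (abs_nonneg _)
        _ ≤ _ := by linarith
    have e : V - 2 / Real.pi * pair φ u = (V - (-(2 / Real.pi * PD))) -
        2 / Real.pi * (pair φ u + PD) := by ring
    rw [e]
    refine (abs_sub _ _).trans ?_
    calc _ ≤ CE * S1 * (2 + 2 * (9 * C0 * Cd * 2 ^ β + K5 * 4 ^ β)) + 2 * e2 +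
          K5 * ((2 * s : ℝ) / R) ^ β := add_le_add hfin1 hlast
      _ = _ := by rw [he2, hEL]; ring

end Vale.Agent.P155.E3
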