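import Vale.Agent.P155.E3.SumQ
import Vale.Agent.P155.J.JMain
import Vale.Agent.P155.H12.MassBd

/-!
# P155, TIGHT (4), ME-SD: contribution of the layer
-/

namespace Vale.Agent.P155.E3

open Finset Skel J E

theorem lap_eq_fL (O : Set Pt) (φ χ u : Pt → ℝ) (y : Pt) [Decidable (y ∈ O)] :
    lap (fun y => χ y * u y) y = fL O φ χ u y - (if y ∈ O then φ y else 0) := by
  unfold fL
  split_ifs <;> ring

theorem dF_sub_le {O : Set Pt} (hO : O.Finite) (x y : Pt) : dF O x ≤ dF O y + dn x y := by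
  obtain ⟨z, hz, hd⟩ := dF_spec hO y
  refine (dF_le hz).trans ?_
  refine (dn_triangle x y z).trans ?_
  omega

/-- the mass of `Δ(χu)` in a Whitney box -/
theorem mass_box {O : Set Pt} {R s M : ℕ} {κ CW : ℝ} {φ u : Pt → ℝ} (W : WData O R s M κ CW u)
    (hR1 : 1 ≤ R) (hO : O.Finite) (hs : 1 ≤ s) (hsR : s ≤ R) (hu : IsGreen O φ u) {C0 : ℝ}
    (hC0 : 0 ≤ C0) (hφ : ∀ y, |φ y| ≤ C0 / (R : ℝ) ^ 2) {Mm γ : ℝ}
    (hmb : ∀ (p : Pt) (ρ : ℕ), s ≤ ρ → ρ ≤ R →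
        ∑ x ∈ box p ρ, |fL O φ W.χ u x| ≤ Mm * ((ρ : ℝ) / R) ^ γ)
    (hpar : ∀ n : ℕ, s ≤ 16 * n → 1 ≤ n) :
    ∀ q ∈ W.I, ∑ y ∈ box (W.x q) (W.n q), |lap (fun y => W.χ y * u y) y| ≤
      9 * C0 * ((W.n q : ℝ) / R) ^ 2 + if W.n q ≤ s then Mm * ((s : ℝ) / R) ^ γ else 0 := by
  classical
  intro q hq
  obtain ⟨q1, q2, q3, q4, q5⟩ := W.hn q hq
  have hn1 := hpar _ q1
  have hn1r : (1 : ℝ) ≤ W.n q := by exact_mod_cast hn1
  have hRr : (1 : ℝ) ≤ R := by exact_mod_cast hR1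
  have hOne : ∃ q, q ∉ O := hO.infinite_compl.nonempty
  have h1 : ∑ y ∈ box (W.x q) (W.n q), |lap (fun y => W.χ y * u y) y| ≤
      ∑ y ∈ box (W.x q) (W.n q), |fL O φ W.χ u y| +
      ∑ y ∈ box (W.x q) (W.n q), C0 / (R : ℝ) ^ 2 := by
    rw [← Finset.sum_add_distrib]
    apply Finset.sum_le_sum
    intro y _
    rw [lap_eq_fL O φ]
    refine (abs_sub _ _).trans ?_
    apply add_le_add le_rfl
    split_ifs
    · exact hφ y
    · rw [abs_zero]; positivity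
  have h2 : ∑ y ∈ box (W.x q) (W.n q), C0 / (R : ℝ) ^ 2 ≤ 9 * C0 * ((W.n q : ℝ) / R) ^ 2 := by
    rw [Finset.sum_const, nsmul_eq_mul, card_box']
    calc (2 * (W.n q : ℝ) + 1) ^ 2 * (C0 / (R : ℝ) ^ 2)
        ≤ (3 * (W.n q : ℝ)) ^ 2 * (C0 / (R : ℝ) ^ 2) := by
          apply mul_le_mul_of_nonneg_right _ (by positivity)
          exact pow_le_pow_left₀ (by positivity) (by linarith) 2
      _ = _ := by field_simp; ring
  have h3 : ∑ y ∈ box (W.x q) (W.n q), |fL O φ W.χ u y| ≤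
      if W.n q ≤ s then Mm * ((s : ℝ) / R) ^ γ else 0 := by
    split_ifs with hns
    · refine le_trans ?_ (hmb (W.x q) s le_rfl hsR)
      apply Finset.sum_le_sum_of_subset_of_nonneg
      · intro y hy
        exact dn_le_iff.1 ((dn_le_iff.2 hy).trans hns)
      · intro y _ _
        exact abs_nonneg _
    · apply le_of_eq
      apply Finset.sum_eq_zero
      intro y hy
      by_contra hne
      have hne' : fL O φ W.χ u y ≠ 0 := fun h => hne (by rw [h, abs_zero])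
      have h4 := (H12.fL_supp hOne hs W.cut hu hne').2
      have h5 := dn_le_iff.2 hy
      have h6 := dF_sub_le hO (W.x q) y
      omega
  linarith

/-- the energy of `χu` versus `⟨φ, u⟩` -/
theorem pair_D {O : Set Pt} {R s : ℕ} {φ u χ : Pt → ℝ} {C0 Cd Cc β Mm : ℝ} (hR : 1 ≤ R)
    (hC0 : 0 ≤ C0) (hCd : 0 ≤ Cd) (hβ : 0 < β) (hφb : IsBump (0, 0) R (C0 / (R : ℝ) ^ 2) φ)
    (hu : IsGreen O φ u) (hO : O.Finite) (hOR : O ⊆ (box (0, 0) R : Set Pt)) (hs : 1 ≤ s)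
    (hdec : ∀ x, |u x| ≤ Cd * ((dF O x : ℝ) / R) ^ β) (hχ : IsCut O s Cc χ)
    (hmt : ∑ x ∈ box (0, 0) R, |fL O φ χ u x| ≤ Mm) :
    |pair φ u + pair (fun y => χ y * u y) (lap (fun y => χ y * u y))| ≤
      (9 * C0 * Cd + Cd * Mm) * ((2 * s : ℝ) / R) ^ β := by
  classical
  have hOne : ∃ q, q ∉ O := hO.infinite_compl.nonempty
  have hcut := pair_cut hR hC0 hCd hβ hφb hu hO hdec hχ
  have hRr : (1 : ℝ) ≤ R := by exact_mod_cast hR
  have hu0 : ∀ y, y ∉ box (0, 0) R → χ y * u y = 0 := by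
    intro y hy
    rw [hu.off y (fun h => hy (by exact_mod_cast hOR h)), mul_zero]
  have e1 : pair (fun y => χ y * u y) (lap (fun y => χ y * u y)) =
      ∑ y ∈ box (0, 0) R, χ y * u y * fL O φ χ u y - pair (fun y => χ y * u y) φ := by
    unfold pair
    rw [finsum_eq_box (g := fun y => χ y * u y) hu0, finsum_eq_box (g := fun y => χ y * u y) hu0,
      ← Finset.sum_sub_distrib]
    refine Finset.sum_congr rfl (fun y _ => ?_)
    rw [lap_eq_fL O φ]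
    split_ifs with hy
    · ring
    · rw [hu.off y hy]; ring
  have h2 : |∑ y ∈ box (0, 0) R, χ y * u y * fL O φ χ u y| ≤
      Cd * Mm * ((2 * s : ℝ) / R) ^ β := by
    refine (Finset.abs_sum_le_sum_abs _ _).trans ?_
    have h3 : ∀ y ∈ box (0, 0) R, |χ y * u y * fL O φ χ u y| ≤
        (Cd * ((2 * s : ℝ) / R) ^ β) * |fL O φ χ u y| := by
      intro y _
      by_cases hne : fL O φ χ u y = 0
      · rw [hne]; simp
      · have h4 := (H12.fL_supp hOne hs hχ hu hne).2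
        rw [abs_mul, abs_mul]
        apply mul_le_mul_of_nonneg_right _ (abs_nonneg _)
        have h5 : |χ y| ≤ 1 := by
          rw [abs_of_nonneg (hχ.nonneg y)]; exact hχ.le_one y
        have h6 : |u y| ≤ Cd * ((2 * s : ℝ) / R) ^ β := by
          refine (hdec y).trans ?_
          apply mul_le_mul_of_nonneg_left _ hCd
          apply Real.rpow_le_rpow (by positivity) _ hβ.le
          apply div_le_div_of_nonneg_right _ (by positivity)
          exact_mod_cast h4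
        calc |χ y| * |u y| ≤ 1 * (Cd * ((2 * s : ℝ) / R) ^ β) :=
              mul_le_mul h5 h6 (abs_nonneg _) (by norm_num)
          _ = _ := one_mul _
    refine (Finset.sum_le_sum h3).trans ?_
    rw [← Finset.mul_sum]
    calc Cd * ((2 * s : ℝ) / R) ^ β * ∑ y ∈ box (0, 0) R, |fL O φ χ u y|
        ≤ Cd * ((2 * s : ℝ) / R) ^ β * Mm := mul_le_mul_of_nonneg_left hmt (by positivity)
      _ = _ := by ring
  rw [e1]
  have e2 : pair φ u + (∑ y ∈ box (0, 0) R, χ y * u y * fL O φ χ u y -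
      pair (fun y => χ y * u y) φ) = (pair φ u - pair (fun y => χ y * u y) φ) +
      ∑ y ∈ box (0, 0) R, χ y * u y * fL O φ χ u y := by ring
  rw [e2]
  refine (abs_add_le _ _).trans ?_
  calc _ ≤ 9 * C0 * Cd * ((2 * s : ℝ) / R) ^ β + Cd * Mm * ((2 * s : ℝ) / R) ^ β :=
        add_le_add hcut h2
    _ = _ := by ring

/-- bound of `⟨φ, u⟩` -/
theorem pair_le {O : Set Pt} {R : ℕ} {φ u : Pt → ℝ} {C0 Cd β : ℝ} (hR : 1 ≤ R)
    (hC0 : 0 ≤ C0) (hCd : 0 ≤ Cd) (hβ : 0 < β) (hφb : IsBump (0, 0) R (C0 / (R : ℝ) ^ 2) φ)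
    (hdF : ∀ x, dF O x ≤ R + 1)
    (hdec : ∀ x, |u x| ≤ Cd * ((dF O x : ℝ) / R) ^ β) :
    |pair φ u| ≤ 9 * C0 * Cd * 2 ^ β := by
  have hRr : (1 : ℝ) ≤ R := by exact_mod_cast hR
  have h1 : |pair φ u| ≤ (2 * R + 1) ^ 2 * (C0 / (R : ℝ) ^ 2 * (Cd * 2 ^ β)) := by
    unfold pair
    apply J.abs_finsum_le (x := (0, 0))
    · intro y
      rw [abs_mul]
      apply mul_le_mul (IsBump.abs_le hφb y) _ (abs_nonneg _) (by positivity)
      refine (hdec y).trans ?_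
      apply mul_le_mul_of_nonneg_left _ hCd
      apply Real.rpow_le_rpow (by positivity) _ hβ.le
      rw [div_le_iff₀ (by linarith)]
      have : (dF O y : ℝ) ≤ R + 1 := by exact_mod_cast hdF y
      linarith
    · intro y hy
      rw [hφb.1 y hy, zero_mul]
  refine h1.trans ?_
  calc (2 * (R : ℝ) + 1) ^ 2 * (C0 / (R : ℝ) ^ 2 * (Cd * 2 ^ β))
      ≤ (3 * (R : ℝ)) ^ 2 * (C0 / (R : ℝ) ^ 2 * (Cd * 2 ^ β)) := by
        apply mul_le_mul_of_nonneg_right _ (by positivity)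
        exact pow_le_pow_left₀ (by positivity) (by linarith) 2
    _ = _ := by field_simp; ring

/-- total height of the bumps at the lowest scales -/
theorem sum_low {O : Set Pt} {R s M : ℕ} {κ CW : ℝ} {u : Pt → ℝ} (W : WData O R s M κ CW u)
    (hCW : 0 ≤ CW) (hR : 1 ≤ R) (hκ : 0 < κ) (h2s : 2 * s ≤ M)
    (hpar : ∀ n : ℕ, s ≤ 16 * n → 1 ≤ n ∧ (n : ℝ) ^ (1 - 3 * κ) ≤ 2 * ⌊(n : ℝ) ^ (1 - 3 * κ)⌋₊) :
    ∑ q ∈ W.I, W.H q * (if W.n q ≤ s then 1 else 0) ≤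
      CW * (1 + Real.log R) * (4 * CW * (s : ℝ) ^ (6 * κ)) := by
  have hRr : (1 : ℝ) ≤ R := by exact_mod_cast hR
  refine sum_scales (e := fun m => if m ≤ s then (1 : ℝ) else 0) (H := W.H)
    (B := 4 * CW * (s : ℝ) ^ (6 * κ)) ?_ (by positivity) W.card
  intro m hm
  obtain ⟨q, hq, rfl⟩ := Finset.mem_image.1 hm
  set m := W.n q with hmdef
  obtain ⟨p1, p2⟩ := hpar m (W.hn q hq).1
  split_ifs with hms
  · rw [mul_one]
    set S := ∑ q ∈ W.I.filter (fun q => W.n q = m), W.H q with hS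
    have hS0 : 0 ≤ S :=
      Finset.sum_nonneg (fun q hq => (W.hn q (Finset.mem_filter.1 hq).1).2.2.2.1)
    have hm1 : (1 : ℝ) ≤ m := by exact_mod_cast p1
    have hm0 : (0 : ℝ) < m := by linarith
    have h1 := W.scale m
    rw [if_pos (by omega)] at h1
    have e1 : ((m : ℝ) ^ (1 - 3 * κ)) ^ 2 ≤ (2 * (⌊(m : ℝ) ^ (1 - 3 * κ)⌋₊ : ℝ)) ^ 2 :=
      pow_le_pow_left₀ (by positivity) p2 2
    have e2 : (m : ℝ) ^ 2 = ((m : ℝ) ^ (1 - 3 * κ)) ^ 2 * (m : ℝ) ^ (6 * κ) := by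
      rw [← Real.rpow_natCast, ← Real.rpow_natCast, ← Real.rpow_mul hm0.le, ← Real.rpow_add hm0]
      congr 1; push_cast; ring
    have h2 : S * (m : ℝ) ^ 2 ≤ 4 * CW * (m : ℝ) ^ (6 * κ) * (m : ℝ) ^ 2 := by
      calc S * (m : ℝ) ^ 2 = (S * ((m : ℝ) ^ (1 - 3 * κ)) ^ 2) * (m : ℝ) ^ (6 * κ) := by
            rw [e2]; ring
        _ ≤ (S * (2 * (⌊(m : ℝ) ^ (1 - 3 * κ)⌋₊ : ℝ)) ^ 2) * (m : ℝ) ^ (6 * κ) := by
            apply mul_le_mul_of_nonneg_right _ (by positivity)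
            exact mul_le_mul_of_nonneg_left e1 hS0
        _ = 4 * (S * (⌊(m : ℝ) ^ (1 - 3 * κ)⌋₊ : ℝ) ^ 2) * (m : ℝ) ^ (6 * κ) := by ring
        _ ≤ 4 * (CW * (m : ℝ) ^ 2) * (m : ℝ) ^ (6 * κ) := by
            apply mul_le_mul_of_nonneg_right _ (by positivity)
            linarith
        _ = _ := by ring
    have h3 : S ≤ 4 * CW * (m : ℝ) ^ (6 * κ) := le_of_mul_le_mul_right h2 (by positivity)
    refine h3.trans ?_
    apply mul_le_mul_of_nonneg_left _ (by positivity)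
    apply Real.rpow_le_rpow hm0.le _ (by positivity)
    exact_mod_cast hms
  · rw [mul_zero]; positivity

end Vale.Agent.P155.E3
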