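import Vale.Agent.P155.E3.Layer
import Vale.Agent.P155.G45.Main

/-!
# P155, TIGHT (4), ME-SD: conditional mean and variance of `h(Δ(χu))` for ANY exploration
-/

namespace Vale.Agent.P155.E3

open Finset Skel J E Filter

theorem v_ineq {V D E S e2 K : ℝ} (hV : 0 ≤ V) (hE : E ≤ 1 + V) (hS0 : 0 ≤ S)
    (hS : S ≤ 1 / 2) (he2 : 0 ≤ e2) (h : |V - D| ≤ S * E + e2) (hD : |D| ≤ K) :
    |V - D| ≤ S * (2 + 2 * K) + 2 * e2 := by
  have hK : 0 ≤ K := (abs_nonneg _).trans hD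
  have h1 : S * E ≤ S * (1 + V) := mul_le_mul_of_nonneg_left hE hS0
  have h2 : V - D ≤ S * (1 + V) + e2 := (le_abs_self _).trans (h.trans (by linarith))
  have h3 : D ≤ K := (le_abs_self _).trans hD
  have h4 : V ≤ 2 * K + 1 + 2 * e2 := by nlinarith
  have h5 : S * (1 + V) ≤ S * (2 + 2 * K + 2 * e2) := mul_le_mul_of_nonneg_left (by linarith) hS0
  have h6 : S * (2 * e2) ≤ e2 := by nlinarith
  have h7 : S * (2 + 2 * K + 2 * e2) = S * (2 + 2 * K) + S * (2 * e2) := by ring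
  linarith

/-- the layer error -/
theorem layer_num {R a κ γ Mm CW : ℝ} {s : ℕ} (hR : 1 ≤ R) (ha0 : 0 ≤ a) (ha : a ≤ 1 / 2)
    (hκ : 0 < κ) (hκ2 : κ ≤ 1 / 200) (hκγ : κ ≤ γ / 40) (hs : s = ⌈R ^ a⌉₊)
    (hMm : 0 ≤ Mm) (hCW : 0 ≤ CW) :
    Mm * ((s : ℝ) / R) ^ γ * R ^ κ * (CW * (1 + Real.log R) * (4 * CW * (s : ℝ) ^ (6 * κ))) ≤
      8 * Mm * 4 ^ γ * CW ^ 2 * (1 + 10 / γ) * R ^ (-(γ / 4)) := by
  have hR0 : 0 < R := by linarith
  have hγ : 0 < γ := by linarith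
  have h1 : ((s : ℝ) / R) ^ γ ≤ 4 ^ γ * R ^ (-(γ / 2)) := by
    refine le_trans ?_ (T4_bound hR hγ ha0 ha hs)
    apply Real.rpow_le_rpow (by positivity) _ hγ.le
    apply div_le_div_of_nonneg_right _ hR0.le
    have : (0 : ℝ) ≤ s := by positivity
    linarith
  have h2 : (s : ℝ) ^ (6 * κ) ≤ 2 * R ^ (3 * κ) := by
    have k1 : (s : ℝ) ≤ 2 * R ^ (1 / 2 : ℝ) := by
      rw [hs]
      have k2 := Nat.ceil_lt_add_one (show 0 ≤ R ^ a by positivity)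
      have k3 : 1 ≤ R ^ (1 / 2 : ℝ) := Real.one_le_rpow hR (by norm_num)
      have k4 : R ^ a ≤ R ^ (1 / 2 : ℝ) := Real.rpow_le_rpow_of_exponent_le hR ha
      linarith
    calc (s : ℝ) ^ (6 * κ) ≤ (2 * R ^ (1 / 2 : ℝ)) ^ (6 * κ) :=
          Real.rpow_le_rpow (by positivity) k1 (by positivity)
      _ = 2 ^ (6 * κ) * R ^ (3 * κ) := by
          rw [Real.mul_rpow (by norm_num) (by positivity), ← Real.rpow_mul hR0.le]
          congr 2; ring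
      _ ≤ 2 * R ^ (3 * κ) := by
          apply mul_le_mul_of_nonneg_right _ (by positivity)
          calc (2 : ℝ) ^ (6 * κ) ≤ 2 ^ (1 : ℝ) :=
                Real.rpow_le_rpow_of_exponent_le (by norm_num) (by linarith)
            _ = 2 := Real.rpow_one _
  have h3 : 1 + Real.log R ≤ (1 + 10 / γ) * R ^ (γ / 10) := by
    have := one_add_log_le (γ := γ / 5) (by linarith) hR
    refine this.trans (le_of_eq ?_)
    congr 1
    · field_simp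
      ring
    · congr 1; ring
  have hlog : 0 ≤ 1 + Real.log R := by
    have := Real.log_nonneg hR
    linarith
  calc Mm * ((s : ℝ) / R) ^ γ * R ^ κ * (CW * (1 + Real.log R) * (4 * CW * (s : ℝ) ^ (6 * κ)))
      ≤ Mm * (4 ^ γ * R ^ (-(γ / 2))) * R ^ κ *
        (CW * ((1 + 10 / γ) * R ^ (γ / 10)) * (4 * CW * (2 * R ^ (3 * κ)))) := by gcongr
    _ = 8 * Mm * 4 ^ γ * CW ^ 2 * (1 + 10 / γ) *
        (R ^ (-(γ / 2)) * R ^ κ * R ^ (γ / 10) * R ^ (3 * κ)) := by ring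
    _ ≤ _ := by
        apply mul_le_mul_of_nonneg_left _ (by positivity)
        rw [← Real.rpow_add hR0, ← Real.rpow_add hR0, ← Real.rpow_add hR0]
        apply Real.rpow_le_rpow_of_exponent_le hR
        linarith

/-- **ME-SD**: for any exploration `X` and any `X`-unexplored domain `O` with connected complement,
`h(Δ(χu))` has conditional mean `0` and conditional variance `(2/π)⟨φ, G_O φ⟩`, up to a power of
`R`; the exceptional weight `B` does not depend on `X, O, φ`. -/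
def ME_SD : Prop := ∀ C0 p a : ℝ, 0 < a → a ≤ 1 / 2 → ∃ c > (0 : ℝ), ∃ C : ℝ, 0 ≤ C ∧
  ∃ R0 : ℕ, 1 ≤ R0 ∧ ∀ R : ℕ, R0 ≤ R → ∀ T : Temp, Fits T R → ∃ B : Conf → ℝ,
  (∀ ω, 0 ≤ B ω) ∧ Ex T.V B ≤ C * (R : ℝ) ^ (-p) ∧
  ∀ X : Expl, IsExpl T.V X → ∀ ω ∈ DD T.V, ∀ (O : Set Pt) (φ u : Pt → ℝ),
  O ⊆ T.faceSet → CP O →
  (∀ v : Pt, (∀ f : Pt, v.1 - 1 ≤ f.1 → f.1 ≤ v.1 → v.2 - 1 ≤ f.2 → f.2 ≤ v.2 → f ∈ O) →
      v ∈ (X ω).1 ∧ v ∈ (X ω).2) →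
  IsBump (0, 0) R (C0 / (R : ℝ) ^ 2) φ → IsGreen O φ u →
  ∃ χ : Pt → ℝ, IsCut O ⌈(R : ℝ) ^ a⌉₊ C χ ∧
    |cEx T.V X (fun ω' => hf ω' (lap (fun y => χ y * u y))) ω| ≤
      C * (R : ℝ) ^ (-c) + cEx T.V X B ω ∧
    |cEx T.V X (fun ω' => (hf ω' (lap (fun y => χ y * u y))) ^ 2) ω - 2 / Real.pi * pair φ u| ≤
      C * (R : ℝ) ^ (-c) + cEx T.V X B ω

end Vale.Agent.P155.E3
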