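import Vale.Agent.P155.E3.Box
import Vale.Agent.P155.J.Main

/-!
# P155, TIGHT (4), ME-SD: summing over the Whitney bumps
-/

namespace Vale.Agent.P155.E3

open Finset Skel J E

/-- the total weight of the bad events, as a function of the configuration -/
noncomputable def badW (R : ℕ) (G : Pt → ℕ → Set Conf) (ω : Conf) : ℝ :=
  ∑ x ∈ box (0, 0) R, ∑ n ∈ Finset.range (R + 1), bad (G x n) ω

theorem badW_nonneg (R : ℕ) (G : Pt → ℕ → Set Conf) (ω : Conf) : 0 ≤ badW R G ω :=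
  Finset.sum_nonneg (fun _ _ => Finset.sum_nonneg (fun _ _ => bad_nonneg _ _))

theorem bad_le_badW {R : ℕ} {G : Pt → ℕ → Set Conf} {x : Pt} {n : ℕ} (hx : x ∈ box (0, 0) R)
    (hn : n ≤ R) (ω : Conf) : bad (G x n) ω ≤ badW R G ω := by
  unfold badW
  calc bad (G x n) ω ≤ ∑ n ∈ Finset.range (R + 1), bad (G x n) ω :=
        Finset.single_le_sum (f := fun n => bad (G x n) ω)
          (fun n _ => bad_nonneg _ _) (Finset.mem_range.2 (by omega))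
    _ ≤ _ := Finset.single_le_sum
        (f := fun x => ∑ n ∈ Finset.range (R + 1), bad (G x n) ω)
          (fun x _ => Finset.sum_nonneg (fun n _ => bad_nonneg _ _)) hx

theorem Ex_badW {T : Temp} {R : ℕ} {G : Pt → ℕ → Set Conf} {P0 : ℝ}
    (hG : ∀ x n, Ex T.V (bad (G x n)) ≤ P0) :
    Ex T.V (badW R G) ≤ (2 * R + 1) ^ 2 * ((R + 1) * P0) := by
  have h1 : Ex T.V (badW R G) =
      ∑ x ∈ box (0, 0) R, ∑ n ∈ Finset.range (R + 1), Ex T.V (bad (G x n)) := by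
    unfold badW
    rw [Ex_eq_avg, avg_sum]
    refine Finset.sum_congr rfl (fun x _ => ?_)
    rw [avg_sum]
    rfl
  rw [h1]
  calc ∑ x ∈ box (0, 0) R, ∑ n ∈ Finset.range (R + 1), Ex T.V (bad (G x n))
      ≤ ∑ x ∈ box (0, 0) R, ∑ n ∈ Finset.range (R + 1), P0 :=
        Finset.sum_le_sum (fun x _ => Finset.sum_le_sum (fun n _ => hG x n))
    _ = (2 * R + 1) ^ 2 * ((R + 1) * P0) := by
        rw [Finset.sum_const, Finset.sum_const, nsmul_eq_mul, nsmul_eq_mul, card_box',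
          Finset.card_range]
        push_cast
        ring

/-- a box deep inside `O` is unexplored -/
theorem box_sub_X {X : Expl} {ω : Conf} {O : Set Pt}
    (hin : ∀ v : Pt, (∀ f : Pt, v.1 - 1 ≤ f.1 → f.1 ≤ v.1 → v.2 - 1 ≤ f.2 → f.2 ≤ v.2 → f ∈ O) →
      v ∈ (X ω).1 ∧ v ∈ (X ω).2) {x : Pt} {n : ℕ} (hn : 1 ≤ n) (hd : 4 * n ≤ dF O x) :
    (box x n : Set Pt) ⊆ (X ω).1 ∧ (box x n : Set Pt) ⊆ (X ω).2 := by
  have key : ∀ v ∈ (box x n : Set Pt), v ∈ (X ω).1 ∧ v ∈ (X ω).2 := by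
    intro v hv
    apply hin v
    intro f h1 h2 h3 h4
    apply mem_of_dn_lt (x := x)
    have : f ∈ box x (n + 1) := by
      rw [Finset.mem_coe, mem_box] at hv
      rw [mem_box]
      push_cast
      refine ⟨by linarith [hv.1], by linarith [hv.2.1], by linarith [hv.2.2.1],
        by linarith [hv.2.2.2]⟩
    have := dn_le_iff.2 this
    omega
  exact ⟨fun v hv => (key v hv).1, fun v hv => (key v hv).2⟩

/-- the field `h(Δ(χu))` is the sum of the fields of the bumps -/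
theorem hf_W {O : Set Pt} {R s M : ℕ} {κ C : ℝ} {u : Pt → ℝ} (W : WData O R s M κ C u)
    (ω : Conf) : hf ω (lap (fun y => W.χ y * u y)) = ∑ q ∈ W.I, hf ω (lap (W.ψ q)) := by
  have e1 : lap (fun x => W.χ x * u x) = fun x => ∑ q ∈ W.I, lap (W.ψ q) x := by
    funext x
    rw [← lap_sum]
    congr 1
    funext y
    exact W.sum y
  rw [e1, hf_sum (fun q hq => fs_lap (IsBump.fs (W.hn q hq).2.2.2.2))]

theorem pair_W {O : Set Pt} {R s M : ℕ} {κ C : ℝ} {u : Pt → ℝ} (W : WData O R s M κ C u)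
    (f : Pt → ℝ) : pair (fun y => W.χ y * u y) f = ∑ q ∈ W.I, pair (W.ψ q) f := by
  rw [← pair_sum (fun q hq => IsBump.fs (W.hn q hq).2.2.2.2)]
  congr 1
  funext y
  exact W.sum y

/-- pointwise bound of `Δ(χu)` by the total height of the bumps -/
theorem abs_lapW_le {O : Set Pt} {R s M : ℕ} {κ C : ℝ} {u : Pt → ℝ} (W : WData O R s M κ C u)
    (y : Pt) : |lap (fun y => W.χ y * u y) y| ≤ 8 * ∑ q ∈ W.I, W.H q := by
  have e1 : lap (fun x => W.χ x * u x) y = ∑ q ∈ W.I, lap (W.ψ q) y := by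
    rw [← lap_sum]
    congr 1
    funext y
    exact W.sum y
  rw [e1, Finset.mul_sum]
  refine (Finset.abs_sum_le_sum_abs _ _).trans (Finset.sum_le_sum ?_)
  intro q hq
  have h := (W.hn q hq).2.2.2.2
  have a1 := IsBump.abs_le h (y.1 + 1, y.2)
  have a2 := IsBump.abs_le h (y.1 - 1, y.2)
  have a3 := IsBump.abs_le h (y.1, y.2 + 1)
  have a4 := IsBump.abs_le h (y.1, y.2 - 1)
  have a5 := IsBump.abs_le h y
  unfold lap
  rw [abs_le] at *
  constructor <;> linarith [a1.1, a1.2, a2.1, a2.2, a3.1, a3.2, a4.1, a4.2, a5.1, a5.2]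

/-- The local estimates for the good events (as delivered by `E_loc`). -/
def LocGood (T : Temp) (κ CE : ℝ) (R : ℕ) (G : Pt → ℕ → Set Conf) (S : ℕ → Prop) : Prop :=
  ∀ (x : Pt) (n : ℕ), S n → 2 * n ≤ dF T.faceSet x → ∀ ω ∈ DD T.V, ω ∈ G x n →
    ∀ (H : ℝ) (ψ : Pt → ℝ), IsBump x ⌊(n : ℝ) ^ (1 - 3 * κ)⌋₊ H ψ →
    |cEx T.V (XB T x n) (fun ω' => hf ω' (lap ψ)) ω| ≤ CE * H * (R : ℝ) ^ κ * (n : ℝ) ^ (-1 + κ) ∧
    ∀ y, dn x y ≤ n → |cCov T.V (XB T x n) (fun ω' => hf ω' (lap ψ)) (hR y) ω +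
      2 / Real.pi * ψ y| ≤ CE * H * (R : ℝ) ^ κ * (n : ℝ) ^ (-(1 / 20) : ℝ)

section
variable {T : Temp} {R s M : ℕ} {κ CE CW : ℝ} {u : Pt → ℝ} {O : Set Pt} {X : Expl} {ω : Conf}
  {G : Pt → ℕ → Set Conf}

/-- first moment -/
theorem first_moment (hX : IsExpl T.V X) (hω : ω ∈ DD T.V)
    (hR1 : 1 ≤ R) (hfit : Fits T R) (hO : O ⊆ T.faceSet)
    (hin : ∀ v : Pt, (∀ f : Pt, v.1 - 1 ≤ f.1 → f.1 ≤ v.1 → v.2 - 1 ≤ f.2 → f.2 ≤ v.2 → f ∈ O) →
      v ∈ (X ω).1 ∧ v ∈ (X ω).2) (W : WData O R s M κ CW u) (hCE : 0 ≤ CE) (hMR : M ≤ R)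
    (hG : LocGood T κ CE R G (fun n => s ≤ 16 * n))
    (hpar : ∀ n : ℕ, s ≤ 16 * n → 1 ≤ n ∧ 1 ≤ ⌊(n : ℝ) ^ (1 - 3 * κ)⌋₊ ∧
      ⌊(n : ℝ) ^ (1 - 3 * κ)⌋₊ ≤ n) :
    |cEx T.V X (fun ω' => hf ω' (lap (fun y => W.χ y * u y))) ω| ≤
      CE * (∑ q ∈ W.I, W.H q * eSD κ (1 / 20) R (W.n q)) +
      1400 * (R : ℝ) ^ 3 * (∑ q ∈ W.I, W.H q) * cEx T.V X (badW R G) ω := by
  have hfin : T.faceSet.Finite := fs_of_sub_box hfit
  have hRr : (1 : ℝ) ≤ R := by exact_mod_cast hR1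
  have e0 : cEx T.V X (fun ω' => hf ω' (lap (fun y => W.χ y * u y))) ω =
      ∑ q ∈ W.I, cEx T.V X (fun ω' => hf ω' (lap (W.ψ q))) ω := by
    rw [cEx_congr (g' := fun ω' => ∑ q ∈ W.I, hf ω' (lap (W.ψ q))) (fun ω' _ => hf_W W ω'), cEx_sum]
  rw [e0]
  refine (Finset.abs_sum_le_sum_abs _ _).trans ?_
  have hterm : ∀ q ∈ W.I, |cEx T.V X (fun ω' => hf ω' (lap (W.ψ q))) ω| ≤
      CE * (W.H q * eSD κ (1 / 20) R (W.n q)) +
        1400 * (R : ℝ) ^ 3 * W.H q * cEx T.V X (badW R G) ω := by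
    intro q hq
    obtain ⟨q1, q2, q3, q4, q5⟩ := W.hn q hq
    obtain ⟨p0, p1, p2⟩ := hpar (W.n q) q1
    have hn1 : (1 : ℝ) ≤ W.n q := by exact_mod_cast p0
    have hd2 : 2 * W.n q ≤ dF T.faceSet (W.x q) := by
      have := dF_mono hO hfin (W.x q)
      omega
    obtain ⟨s1, s2⟩ := box_sub_X hin p0 q3
    have hb := box_to_X hX hω s1 s2 (G := G (W.x q) (W.n q))
      (W := fun ω' => hf ω' (lap (W.ψ q))) (F := fun _ => 0) (K := 0)
      (c := CE * (W.H q) * (R : ℝ) ^ κ * (W.n q : ℝ) ^ (-1 + κ)) (e := 0)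
      (b' := 1400 * (R : ℝ) ^ 3 * W.H q) le_rfl (by positivity) (by positivity)
      (fun ω' h' hg => by
        rw [add_zero, zero_mul, zero_add]
        exact (hG (W.x q) (W.n q) q1 hd2 ω' h' hg (W.H q) (W.ψ q) q5).1)
      (fun ω' h' => by
        rw [add_zero]
        exact crude_Y hR1 hfit h' q5 (by omega))
    rw [add_zero, zero_mul, zero_add] at hb
    refine hb.trans ?_
    have hx : W.x q ∈ box (0, 0) R := by
      have : W.x q ∈ O := mem_of_dF_pos (by omega)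
      exact hfit (hO this)
    have hle : cEx T.V X (bad (G (W.x q) (W.n q))) ω ≤ cEx T.V X (badW R G) ω :=
      cEx_mono (fun ω' _ => bad_le_badW hx (by omega) ω')
    have h2 : CE * W.H q * (R : ℝ) ^ κ * (W.n q : ℝ) ^ (-1 + κ) ≤
        CE * (W.H q * eSD κ (1 / 20) R (W.n q)) := by
      have e : CE * W.H q * (R : ℝ) ^ κ * (W.n q : ℝ) ^ (-1 + κ) =
          CE * (W.H q * ((R : ℝ) ^ κ * (W.n q : ℝ) ^ (-1 + κ))) := by ring
      rw [e]
      apply mul_le_mul_of_nonneg_left _ hCE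
      apply mul_le_mul_of_nonneg_left _ q4
      unfold eSD
      apply mul_le_mul_of_nonneg_left _ (by positivity)
      have g1 : 0 ≤ ((W.n q : ℝ) / R) ^ 2 * (W.n q : ℝ) ^ (-(1 / 20) : ℝ) := by positivity
      have g2 : 0 ≤ ((W.n q : ℝ) / R) ^ 4 := by positivity
      linarith
    have h3 : 1400 * (R : ℝ) ^ 3 * W.H q * cEx T.V X (bad (G (W.x q) (W.n q))) ω ≤
        1400 * (R : ℝ) ^ 3 * W.H q * cEx T.V X (badW R G) ω :=
      mul_le_mul_of_nonneg_left hle (by positivity)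
    linarith
  refine (Finset.sum_le_sum hterm).trans (le_of_eq ?_)
  rw [Finset.sum_add_distrib, Finset.mul_sum, Finset.mul_sum, Finset.sum_mul]

/-- second moment -/
theorem second_moment (hI : E_incr) (hM : E_meas) (hX : IsExpl T.V X) (hω : ω ∈ DD T.V)
    (hR1 : 1 ≤ R) (hfit : Fits T R) (hO : O ⊆ T.faceSet)
    (hin : ∀ v : Pt, (∀ f : Pt, v.1 - 1 ≤ f.1 → f.1 ≤ v.1 → v.2 - 1 ≤ f.2 → f.2 ≤ v.2 → f ∈ O) →
      v ∈ (X ω).1 ∧ v ∈ (X ω).2) (W : WData O R s M κ CW u) (hCE : 0 ≤ CE) (hMR : M ≤ R)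
    (hG : LocGood T κ CE R G (fun n => s ≤ 16 * n))
    (hpar : ∀ n : ℕ, s ≤ 16 * n → 1 ≤ n ∧ 1 ≤ ⌊(n : ℝ) ^ (1 - 3 * κ)⌋₊ ∧
      ⌊(n : ℝ) ^ (1 - 3 * κ)⌋₊ ≤ n) {Cm Λ : ℝ} (hCm : 0 ≤ Cm) (hΛ : 0 ≤ Λ)
    (hmass : ∀ q ∈ W.I, ∑ y ∈ box (W.x q) (W.n q), |lap (fun y => W.χ y * u y) y| ≤
      Cm * ((W.n q : ℝ) / R) ^ 2 + if W.n q ≤ s then Λ else 0) :
    |cEx T.V X (fun ω' => (hf ω' (lap (fun y => W.χ y * u y))) ^ 2) ω +
      2 / Real.pi * pair (fun y => W.χ y * u y) (lap (fun y => W.χ y * u y))| ≤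
      CE * (∑ q ∈ W.I, W.H q * eSD κ (1 / 20) R (W.n q)) *
        cEx T.V X (fun ω' => |hf ω' (lap (fun y => W.χ y * u y))|) ω +
      CE * Cm * (∑ q ∈ W.I, W.H q * eSD κ (1 / 20) R (W.n q)) +
      CE * Λ * (R : ℝ) ^ κ * (∑ q ∈ W.I, W.H q * (if W.n q ≤ s then 1 else 0)) +
      2000000 * (R : ℝ) ^ 6 * (∑ q ∈ W.I, W.H q) ^ 2 * cEx T.V X (badW R G) ω := by
  have hfin : T.faceSet.Finite := fs_of_sub_box hfit
  have hRr : (1 : ℝ) ≤ R := by exact_mod_cast hR1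
  set f : Pt → ℝ := lap (fun y => W.χ y * u y) with hf'
  set SH : ℝ := ∑ q ∈ W.I, W.H q with hSH
  have hSH0 : 0 ≤ SH := Finset.sum_nonneg (fun q hq => (W.hn q hq).2.2.2.1)
  set E1 : ℝ := cEx T.V X (fun ω' => |hf ω' f|) ω with hE1
  have hE10 : 0 ≤ E1 := cEx_nonneg (fun _ _ => abs_nonneg _)
  have hB0 : 0 ≤ cEx T.V X (badW R G) ω := cEx_nonneg (fun _ _ => badW_nonneg _ _ _)
  have e0 : cEx T.V X (fun ω' => (hf ω' f) ^ 2) ω + 2 / Real.pi * pair (fun y => W.χ y * u y) f =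
      ∑ q ∈ W.I, (cEx T.V X (fun ω' => hf ω' (lap (W.ψ q)) * hf ω' f) ω +
        2 / Real.pi * pair (W.ψ q) f) := by
    rw [cEx_congr (g' := fun ω' => ∑ q ∈ W.I, hf ω' (lap (W.ψ q)) * hf ω' f) (fun ω' _ => by
      rw [← Finset.sum_mul, ← hf_W W ω', sq]), cEx_sum, pair_W, Finset.mul_sum,
      Finset.sum_add_distrib]
  rw [e0]
  refine (Finset.abs_sum_le_sum_abs _ _).trans ?_
  have hcrude : ∀ ω' ∈ DD T.V, |hf ω' f| ≤ 1400 * (R : ℝ) ^ 3 * SH := by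
    intro ω' h'
    rw [hf', hf_W W ω', hSH, Finset.mul_sum]
    refine (Finset.abs_sum_le_sum_abs _ _).trans (Finset.sum_le_sum ?_)
    intro q hq
    obtain ⟨q1, q2, q3, q4, q5⟩ := W.hn q hq
    obtain ⟨p0, p1, p2⟩ := hpar (W.n q) q1
    exact crude_Y hR1 hfit h' q5 (by omega)
  have hterm : ∀ q ∈ W.I, |cEx T.V X (fun ω' => hf ω' (lap (W.ψ q)) * hf ω' f) ω +
        2 / Real.pi * pair (W.ψ q) f| ≤
      CE * (W.H q * eSD κ (1 / 20) R (W.n q)) * E1 + CE * Cm * (W.H q * eSD κ (1 / 20) R (W.n q)) +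
      CE * Λ * (R : ℝ) ^ κ * (W.H q * (if W.n q ≤ s then 1 else 0)) +
        2000000 * (R : ℝ) ^ 6 * W.H q * SH * cEx T.V X (badW R G) ω := by
    intro q hq
    obtain ⟨q1, q2, q3, q4, q5⟩ := W.hn q hq
    obtain ⟨p0, p1, p2⟩ := hpar (W.n q) q1
    have hn1 : (1 : ℝ) ≤ W.n q := by exact_mod_cast p0
    have hnR : W.n q ≤ R := by omega
    have htR : ((⌊((W.n q : ℕ) : ℝ) ^ (1 - 3 * κ)⌋₊ : ℕ) : ℝ) ≤ R := by
      exact_mod_cast p2.trans hnR
    have hd2 : 2 * W.n q ≤ dF T.faceSet (W.x q) := by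
      have := dF_mono hO hfin (W.x q)
      omega
    obtain ⟨s1, s2⟩ := box_sub_X hin p0 q3
    set e1 : ℝ := CE * (W.H q) * (R : ℝ) ^ κ * (W.n q : ℝ) ^ (-1 + κ) with he1
    set e2 : ℝ := CE * (W.H q) * (R : ℝ) ^ κ * (W.n q : ℝ) ^ (-(1 / 20) : ℝ) with he2
    set Fq : ℝ := ∑ y ∈ box (W.x q) (W.n q), |f y| with hFq
    have hFq0 : 0 ≤ Fq := Finset.sum_nonneg (fun _ _ => abs_nonneg _)
    have he10 : 0 ≤ e1 := by positivity
    have he20 : 0 ≤ e2 := by positivity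
    have hpairc : |2 / Real.pi * pair (W.ψ q) f| ≤ 72 * (R : ℝ) ^ 6 * W.H q * SH := by
      have h1 : |pair (W.ψ q) f| ≤ (2 * (⌊((W.n q : ℕ) : ℝ) ^ (1 - 3 * κ)⌋₊ : ℝ) + 1) ^ 2 *
          (W.H q * (8 * SH)) := by
        unfold pair
        apply J.abs_finsum_le (x := W.x q)
        · intro y
          rw [abs_mul]
          exact mul_le_mul (IsBump.abs_le q5 y) (abs_lapW_le W y) (abs_nonneg _) q4
        · intro y hy
          rw [q5.1 y hy, zero_mul]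
      have h2 : (2 * (⌊((W.n q : ℕ) : ℝ) ^ (1 - 3 * κ)⌋₊ : ℝ) + 1) ^ 2 ≤ 9 * (R : ℝ) ^ 6 := by
        calc (2 * (⌊((W.n q : ℕ) : ℝ) ^ (1 - 3 * κ)⌋₊ : ℝ) + 1) ^ 2 ≤ (3 * (R : ℝ)) ^ 2 :=
              pow_le_pow_left₀ (by positivity) (by linarith) 2
          _ = 9 * (R : ℝ) ^ 2 := by ring
          _ ≤ 9 * (R : ℝ) ^ 6 := by
              apply mul_le_mul_of_nonneg_left _ (by norm_num)
              exact pow_le_pow_right₀ hRr (by norm_num)
      rw [abs_mul, abs_of_pos (by positivity : (0:ℝ) < 2 / Real.pi)]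
      calc 2 / Real.pi * |pair (W.ψ q) f| ≤ 1 * ((9 * (R : ℝ) ^ 6) * (W.H q * (8 * SH))) := by
            apply mul_le_mul two_div_pi_le_one _ (abs_nonneg _) (by norm_num)
            exact h1.trans (mul_le_mul_of_nonneg_right h2 (by positivity))
        _ = _ := by ring
    have hb := box_to_X hX hω s1 s2 (G := G (W.x q) (W.n q))
      (W := fun ω' => hf ω' (lap (W.ψ q)) * hf ω' f) (F := fun ω' => hf ω' f)
      (K := 2 / Real.pi * pair (W.ψ q) f) (c := Fq * e2) (e := e1)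
      (b' := 2000000 * (R : ℝ) ^ 6 * W.H q * SH) he10 (by positivity) (by positivity)
      (fun ω' h' hg => by
        obtain ⟨g1, g2⟩ := hG (W.x q) (W.n q) q1 hd2 ω' h' hg (W.H q) (W.ψ q) q5
        exact box_two hI hM hfit h' q5 p2 g1 g2)
      (fun ω' h' => by
        refine (abs_add_le _ _).trans ?_
        have c1 : |hf ω' (lap (W.ψ q)) * hf ω' f| ≤
            (1400 * (R : ℝ) ^ 3 * W.H q) * (1400 * (R : ℝ) ^ 3 * SH) := by
          rw [abs_mul]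
          exact mul_le_mul (crude_Y hR1 hfit h' q5 (by omega)) (hcrude ω' h') (abs_nonneg _)
            (by positivity)
        have c2 : (1400 * (R : ℝ) ^ 3 * W.H q) * (1400 * (R : ℝ) ^ 3 * SH) =
            1960000 * ((R : ℝ) ^ 6 * W.H q * SH) := by ring
        have c3 : 0 ≤ (R : ℝ) ^ 6 * W.H q * SH := by positivity
        linarith)
    refine hb.trans ?_
    have hx : W.x q ∈ box (0, 0) R := by
      have : W.x q ∈ O := mem_of_dF_pos (by omega)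
      exact hfit (hO this)
    have hle : cEx T.V X (bad (G (W.x q) (W.n q))) ω ≤ cEx T.V X (badW R G) ω :=
      cEx_mono (fun ω' _ => bad_le_badW hx (by omega) ω')
    have g1 : 0 ≤ ((W.n q : ℝ) / R) ^ 2 * (W.n q : ℝ) ^ (-(1 / 20) : ℝ) := by positivity
    have g2 : 0 ≤ ((W.n q : ℝ) / R) ^ 4 := by positivity
    have g3 : 0 ≤ (W.n q : ℝ) ^ (-1 + κ) := by positivity
    have h2 : e1 ≤ CE * (W.H q * eSD κ (1 / 20) R (W.n q)) := by
      have e : e1 = CE * (W.H q * ((R : ℝ) ^ κ * (W.n q : ℝ) ^ (-1 + κ))) := by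
        rw [he1]; ring
      rw [e]
      apply mul_le_mul_of_nonneg_left _ hCE
      apply mul_le_mul_of_nonneg_left _ q4
      unfold eSD
      apply mul_le_mul_of_nonneg_left _ (by positivity)
      linarith
    have h3 : Fq * e2 ≤ CE * Cm * (W.H q * eSD κ (1 / 20) R (W.n q)) +
        CE * Λ * (R : ℝ) ^ κ * (W.H q * (if W.n q ≤ s then 1 else 0)) := by
      have k1 : Fq * e2 ≤ (Cm * ((W.n q : ℝ) / R) ^ 2 + if W.n q ≤ s then Λ else 0) * e2 :=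
        mul_le_mul_of_nonneg_right (hmass q hq) he20
      have k2 : Cm * ((W.n q : ℝ) / R) ^ 2 * e2 ≤ CE * Cm * (W.H q * eSD κ (1 / 20) R (W.n q)) := by
        have e : Cm * ((W.n q : ℝ) / R) ^ 2 * e2 = CE * Cm * (W.H q * ((R : ℝ) ^ κ *
            (((W.n q : ℝ) / R) ^ 2 * (W.n q : ℝ) ^ (-(1 / 20) : ℝ)))) := by
          rw [he2]; ring
        rw [e]
        apply mul_le_mul_of_nonneg_left _ (by positivity)
        apply mul_le_mul_of_nonneg_left _ q4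
        unfold eSD
        apply mul_le_mul_of_nonneg_left _ (by positivity)
        linarith
      have k3 : (if W.n q ≤ s then Λ else 0) * e2 ≤
          CE * Λ * (R : ℝ) ^ κ * (W.H q * (if W.n q ≤ s then 1 else 0)) := by
        split_ifs
        · have hn20 : (W.n q : ℝ) ^ (-(1 / 20) : ℝ) ≤ 1 :=
            Real.rpow_le_one_of_one_le_of_nonpos hn1 (by norm_num)
          calc Λ * e2 = CE * Λ * (R : ℝ) ^ κ * (W.H q * (W.n q : ℝ) ^ (-(1 / 20) : ℝ)) := by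
                rw [he2]; ring
            _ ≤ CE * Λ * (R : ℝ) ^ κ * (W.H q * 1) := by
                apply mul_le_mul_of_nonneg_left _ (by positivity)
                exact mul_le_mul_of_nonneg_left hn20 q4
        · simp
      calc Fq * e2 ≤ _ := k1
        _ = Cm * ((W.n q : ℝ) / R) ^ 2 * e2 + (if W.n q ≤ s then Λ else 0) * e2 := by ring
        _ ≤ _ := add_le_add k2 k3
    have h4 : 2000000 * (R : ℝ) ^ 6 * W.H q * SH * cEx T.V X (bad (G (W.x q) (W.n q))) ω ≤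
        2000000 * (R : ℝ) ^ 6 * W.H q * SH * cEx T.V X (badW R G) ω :=
      mul_le_mul_of_nonneg_left hle (by positivity)
    have h5 : e1 * E1 ≤ CE * (W.H q * eSD κ (1 / 20) R (W.n q)) * E1 :=
      mul_le_mul_of_nonneg_right h2 hE10
    linarith
  refine (Finset.sum_le_sum hterm).trans (le_of_eq ?_)
  rw [Finset.sum_add_distrib, Finset.sum_add_distrib, Finset.sum_add_distrib]
  have s1 : ∑ q ∈ W.I, CE * (W.H q * eSD κ (1 / 20) R (W.n q)) * E1 =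
      CE * (∑ q ∈ W.I, W.H q * eSD κ (1 / 20) R (W.n q)) * E1 := by
    rw [Finset.mul_sum, Finset.sum_mul]
  have s2 : ∑ q ∈ W.I, CE * Cm * (W.H q * eSD κ (1 / 20) R (W.n q)) =
      CE * Cm * (∑ q ∈ W.I, W.H q * eSD κ (1 / 20) R (W.n q)) := by
    rw [Finset.mul_sum]
  have s3 : ∑ q ∈ W.I, CE * Λ * (R : ℝ) ^ κ * (W.H q * (if W.n q ≤ s then 1 else 0)) =
      CE * Λ * (R : ℝ) ^ κ * (∑ q ∈ W.I, W.H q * (if W.n q ≤ s then 1 else 0)) := by
    rw [Finset.mul_sum]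
  have s4 : ∑ q ∈ W.I, 2000000 * (R : ℝ) ^ 6 * W.H q * SH * cEx T.V X (badW R G) ω =
      2000000 * (R : ℝ) ^ 6 * SH ^ 2 * cEx T.V X (badW R G) ω := by
    rw [← Finset.sum_mul, ← Finset.sum_mul, ← Finset.mul_sum, ← hSH]
    ring
  rw [s1, s2, s3, s4]

end

end Vale.Agent.P155.E3
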